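import Vale.Agent.P281.H303.Gen.PushSpec

/-! P281, project T-V, block P-DIR (helper234): Baire on directions. -/

open Set Filter Metric Vale.Agent.P281.J
open Vale.Agent.P281.H64 (Cm)
open Vale.Agent.P281.H64.Thin (IsThinSet)
open scoped Topology ContDiff Manifold

noncomputable section

namespace Vale.Agent.P281.H234

theorem thin_local {n : ℕ} {H : Set (Cm n)} (hH : IsThinSet (Cm n) H) (y : Cm n) :
    ∃ r : ℝ, 0 < r ∧ ∃ g : Cm n → ℂ, (∀ z ∈ ball y (2 * r), AnalyticAt ℂ g z ∧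
      ¬ ∀ᶠ w in 𝓝 z, g w = 0) ∧ ∀ z ∈ ball y (2 * r), z ∈ H → g z = 0 := by
  obtain ⟨g, hg, hne, hs⟩ := hH.2 y
  have hga := (H150.Gen.analyticAt_of_holAt hg).eventually_analyticAt
  obtain ⟨ε, hε, hb⟩ := Metric.eventually_nhds_iff_ball.1 (hga.and hs)
  have h2 : 2 * (ε / 2) = ε := by ring
  refine ⟨ε / 2, by positivity, g, ?_, ?_⟩
  · intro z hz
    rw [h2] at hz
    refine ⟨(hb z hz).1, fun hzero => hne ?_⟩
    have h3 : EqOn g 0 (ball y ε) :=
      AnalyticOnNhd.eqOn_zero_of_preconnected_of_eventuallyEq_zero (fun w hw => (hb w hw).1)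
        (convex_ball y ε).isPreconnected hz hzero
    filter_upwards [ball_mem_nhds y hε] with w hw using h3 hw
  · intro z hz
    rw [h2] at hz
    exact (hb z hz).2

/-- The bad directions. -/
def Bad {n : ℕ} (x₀ : Cm n) (T : Set (Cm n)) : Set (Cm n) :=
  {η | ∃ t : ℂ, ‖t‖ = 1 ∧ x₀ + t • η ∈ T}

theorem bad_closed {n : ℕ} (x₀ : Cm n) {T : Set (Cm n)} (hT : IsClosed T) :
    IsClosed (Bad x₀ T) := by
  have h1 : IsClosed {p : sphere (0 : ℂ) 1 × Cm n | x₀ + (p.1 : ℂ) • p.2 ∈ T} :=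
    hT.preimage (by fun_prop)
  have h2 := isClosedMap_snd_of_compactSpace _ h1
  have h3 : Bad x₀ T = Prod.snd '' {p : sphere (0 : ℂ) 1 × Cm n | x₀ + (p.1 : ℂ) • p.2 ∈ T} := by
    ext η
    constructor
    · rintro ⟨t, ht, h⟩
      exact ⟨(⟨t, by simpa using ht⟩, η), h, rfl⟩
    · rintro ⟨⟨t, η'⟩, h, rfl⟩
      exact ⟨t, by simp, h⟩
  rw [h3]
  exact h2

theorem bad_interior {n : ℕ} (x₀ : Cm n) {y : Cm n} {r : ℝ} (hr : 0 < r) {g : Cm n → ℂ}
    {H : Set (Cm n)} (hg : ∀ z ∈ ball y (2 * r), AnalyticAt ℂ g z ∧ ¬ ∀ᶠ w in 𝓝 z, g w = 0)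
    (hH : ∀ z ∈ ball y (2 * r), z ∈ H → g z = 0) :
    interior (Bad x₀ (closedBall y r ∩ H)) = ∅ := by
  by_contra hne
  obtain ⟨η₁, hη₁⟩ := nonempty_iff_ne_empty.2 hne
  have hsub : closedBall y r ⊆ ball y (2 * r) := closedBall_subset_ball (by linarith)
  obtain ⟨t₀, ht₀, hT₀⟩ := interior_subset hη₁
  have ht0 : t₀ ≠ 0 := by rintro rfl; simp at ht₀
  obtain ⟨η₂, hη₂, h2b, h2g⟩ : ∃ η₂ ∈ interior (Bad x₀ (closedBall y r ∩ H)),
      x₀ + t₀ • η₂ ∈ ball y (2 * r) ∧ g (x₀ + t₀ • η₂) ≠ 0 := by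
    have hne := (hg _ (hsub hT₀.1)).2
    have hfreq : ∃ᶠ w in 𝓝 (x₀ + t₀ • η₁), g w ≠ 0 := by
      rwa [not_eventually] at hne
    have hc : Tendsto (fun w : Cm n => t₀⁻¹ • (w - x₀)) (𝓝 (x₀ + t₀ • η₁)) (𝓝 η₁) := by
      have h0 : Continuous (fun w : Cm n => t₀⁻¹ • (w - x₀)) := by fun_prop
      have h := h0.tendsto (x₀ + t₀ • η₁)
      have h4 : t₀⁻¹ • (x₀ + t₀ • η₁ - x₀) = η₁ := by
        rw [add_sub_cancel_left, smul_smul, inv_mul_cancel₀ ht0, one_smul]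
      rwa [h4] at h
    obtain ⟨w, hw, hw1, hw2⟩ := (hfreq.and_eventually
      ((hc.eventually (isOpen_interior.mem_nhds hη₁)).and
        (isOpen_ball.mem_nhds (hsub hT₀.1)))).exists
    refine ⟨t₀⁻¹ • (w - x₀), hw1, ?_⟩
    have h5 : x₀ + t₀ • t₀⁻¹ • (w - x₀) = w := by
      rw [smul_smul, mul_inv_cancel₀ ht0, one_smul]; abel
    rw [h5]; exact ⟨hw2, hw⟩
  let Ω : Set ℂ := {t | x₀ + t • η₂ ∈ ball y (2 * r)}
  have hΩ : Convex ℝ Ω := by
    intro t ht s hs a b ha hb hab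
    have h6 := convex_ball y (2 * r) ht hs ha hb hab
    have h7 : a • (x₀ + t • η₂) + b • (x₀ + s • η₂) = x₀ + (a • t + b • s) • η₂ := by
      have h8 : a • x₀ + b • x₀ = x₀ := by rw [← add_smul, hab, one_smul]
      rw [smul_add, smul_add, add_smul, smul_assoc, smul_assoc]
      calc a • x₀ + a • t • η₂ + (b • x₀ + b • s • η₂)
          = (a • x₀ + b • x₀) + (a • t • η₂ + b • s • η₂) := by abel
        _ = _ := by rw [h8]
    rw [h7] at h6
    exact h6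
  have hA : AnalyticOnNhd ℂ (fun t : ℂ => g (x₀ + t • η₂)) Ω := fun t ht =>
    AnalyticAt.fun_comp (g := g) (f := fun t : ℂ => x₀ + t • η₂) (hg _ ht).1 (by fun_prop)
  let Z : Set ℂ := {t | ‖t‖ ≤ 2 ∧ x₀ + t • η₂ ∈ closedBall y r ∧ g (x₀ + t • η₂) = 0}
  have hK : IsCompact (closedBall (0 : ℂ) 2 ∩ {t | x₀ + t • η₂ ∈ closedBall y r}) :=
    (isCompact_closedBall _ _).inter_right (isClosed_closedBall.preimage (by fun_prop))
  have hZinf : Z.Infinite := by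
    have hc : Tendsto (fun l : ℝ => (l : ℂ) • η₂) (𝓝 1) (𝓝 η₂) := by
      have h0 : Continuous (fun l : ℝ => (l : ℂ) • η₂) := by fun_prop
      have h := h0.tendsto 1
      simpa using h
    obtain ⟨ε, hε, hε'⟩ := Metric.eventually_nhds_iff_ball.1
      (hc.eventually (isOpen_interior.mem_nhds hη₂))
    have hsub2 : Ioo (1 : ℝ) (1 + min ε 1) ⊆ (fun t : ℂ => ‖t‖) '' Z := by
      intro l hl
      have hl1 : l < 1 + ε := hl.2.trans_le (by linarith [min_le_left ε (1 : ℝ)])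
      have hl2 : l < 2 := hl.2.trans_le (by linarith [min_le_right ε (1 : ℝ)])
      have hl0 : (0 : ℝ) < l := by linarith [hl.1]
      obtain ⟨t, ht, h1, h2⟩ := interior_subset (hε' l (by
        rw [mem_ball, Real.dist_eq, abs_lt]; constructor <;> linarith [hl.1]))
      have h9 : ‖t * (l : ℂ)‖ = l := by
        rw [norm_mul, ht, one_mul, Complex.norm_real, Real.norm_of_nonneg hl0.le]
      rw [smul_smul] at h1 h2
      exact ⟨t * (l : ℂ), ⟨by rw [h9]; exact hl2.le, h1, hH _ (hsub h1) h2⟩, h9⟩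
    exact ((Ioo_infinite (by
      have : 0 < min ε 1 := lt_min hε one_pos
      linarith)).mono hsub2).of_image _
  obtain ⟨t₁, ht₁, hacc⟩ := hZinf.exists_accPt_of_subset_isCompact hK (fun t ht =>
    ⟨by simpa using ht.1, ht.2.1⟩)
  have hfr : ∃ᶠ t in 𝓝[≠] t₁, g (x₀ + t • η₂) = 0 :=
    (accPt_iff_frequently_nhdsNE.1 hacc).mono (fun t ht => ht.2.2)
  exact h2g (hA.eqOn_zero_of_preconnected_of_frequently_eq_zero hΩ.isPreconnected
    (hsub ht₁.2) hfr h2b)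

theorem dir : H303.Gen.DirStmt := by
  intro n C x₀ R H N hR hC hH hCH hN
  have hcov : ∀ k, ∃ T : ℕ → Set (Cm n),
      (∀ j, IsClosed (Bad x₀ (T j)) ∧ interior (Bad x₀ (T j)) = ∅) ∧ H k ⊆ ⋃ j, T j := by
    intro k
    choose r hr g hg hz using thin_local (hH k)
    obtain ⟨s, hs, hcov⟩ :=
      TopologicalSpace.countable_cover_nhds (fun y => closedBall_mem_nhds y (hr y))
    have hne : s.Nonempty := by
      by_contra h
      rw [not_nonempty_iff_eq_empty] at h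
      rw [h] at hcov
      have h1 : (0 : Cm n) ∈ ⋃ x ∈ (∅ : Set (Cm n)), closedBall x (r x) := by
        rw [hcov]; trivial
      simp at h1
    obtain ⟨e, he⟩ := hs.exists_eq_range hne
    refine ⟨fun j => closedBall (e j) (r (e j)) ∩ H k, fun j =>
      ⟨bad_closed _ (isClosed_closedBall.inter (hH k).1),
        bad_interior _ (hr _) (hg _) (hz _)⟩, ?_⟩
    intro z hzH
    have h1 : z ∈ ⋃ x ∈ s, closedBall x (r x) := by rw [hcov]; trivial
    obtain ⟨x, hx, hzx⟩ := mem_iUnion₂.1 h1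
    rw [he] at hx
    obtain ⟨j, rfl⟩ := hx
    exact mem_iUnion.2 ⟨j, hzx, hzH⟩
  choose T hT hHT using hcov
  have hd : Dense (⋂ i : (ℕ × ℕ) ⊕ ℕ,
      Sum.elim (fun p : ℕ × ℕ => (Bad x₀ (T p.1 p.2))ᶜ) (fun k => (N k)ᶜ) i) := by
    refine dense_iInter_of_isOpen ?_ ?_
    · rintro (p | k)
      · exact (hT p.1 p.2).1.isOpen_compl
      · exact (hN k).1.isOpen_compl
    · rintro (p | k)
      · exact interior_eq_empty_iff_dense_compl.1 (hT p.1 p.2).2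
      · exact interior_eq_empty_iff_dense_compl.1 (hN k).2
  obtain ⟨η, hη, hη2⟩ :=
    hd.exists_mem_open isOpen_ball (nonempty_ball.2 hR : (ball (0 : Cm n) R).Nonempty)
  rw [mem_iInter] at hη
  refine ⟨η, by simpa using hη2, fun k => hη (Sum.inr k), ?_⟩
  intro t ht hC'
  obtain ⟨k, hk⟩ := mem_iUnion.1 (hCH hC')
  obtain ⟨j, hj⟩ := mem_iUnion.1 (hHT k hk)
  exact hη (Sum.inl (k, j)) ⟨t, ht, hj⟩

end Vale.Agent.P281.H234
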